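/-
P217, block C: the two coefficient steps for homomorphisms which are congruent to the identity.
-/
import Mathlib

namespace Vale.Agent.P217.Cont

open PowerSeries

/-- Power series whose coefficients below degree `D` lie in `N`. -/
def low {σ A : Type*} [CommRing A] (N : Ideal A) (D : ℕ) : Ideal (MvPowerSeries σ A) where
  carrier := {f | ∀ d : σ →₀ ℕ, d.degree < D → MvPowerSeries.coeff d f ∈ N}
  zero_mem' d _ := by simp
  add_mem' ha hb d hd := by rw [map_add]; exact add_mem (ha d hd) (hb d hd)
  smul_mem' g f hf d hd := by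
    classical
    rw [smul_eq_mul, MvPowerSeries.coeff_mul]
    refine Ideal.sum_mem _ fun x hx => N.mul_mem_left _ (hf x.2 ?_)
    have := Finset.HasAntidiagonal.mem_antidiagonal.1 hx
    have h2 : x.1.degree + x.2.degree = d.degree := by rw [← map_add, this]
    omega

/-- One variable: coefficients below degree `D` lie in `N`. -/
def low1 {A : Type*} [CommRing A] (N : Ideal A) (D : ℕ) : Ideal (PowerSeries A) where
  carrier := {f | ∀ b < D, coeff b f ∈ N}
  zero_mem' b _ := by simp
  add_mem' ha hb b hd := by rw [map_add]; exact add_mem (ha b hd) (hb b hd)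
  smul_mem' g f hf b hd := by
    rw [smul_eq_mul, coeff_mul]
    refine Ideal.sum_mem _ fun x hx => N.mul_mem_left _ (hf x.2 ?_)
    have := Finset.HasAntidiagonal.mem_antidiagonal.1 hx
    omega

variable {A : Type*} [CommRing A]

lemma pow_sub_pow_mem {S : Type*} [CommRing S] (J : Ideal S) {f g : S} (h : f - g ∈ J) (c : ℕ) :
    f ^ c - g ^ c ∈ J := by
  obtain ⟨w, hw⟩ := sub_dvd_pow_sub_pow f g c
  rw [hw]
  exact J.mul_mem_right _ h

lemma coeff_pow_sub_mem {N : Ideal A} {D : ℕ} {h : PowerSeries A} (hh : h - X ∈ low1 N D)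
    {b : ℕ} (hb : b < D) (c : ℕ) : coeff b (h ^ c) - (if b = c then 1 else 0) ∈ N := by
  have := pow_sub_pow_mem (low1 N D) hh c b hb
  rwa [map_sub, coeff_X_pow] at this

lemma coeff_pow_eq_zero_of_lt {h : PowerSeries A} (h0 : constantCoeff h = 0) {b c : ℕ} (hbc : b < c) :
    coeff b (h ^ c) = 0 :=
  coeff_of_lt_order b (lt_of_lt_of_le (by exact_mod_cast hbc) (le_order_pow_of_constantCoeff_eq_zero c h0))

lemma mv_coeff_pow_eq_zero_of_lt {σ : Type*} {f : MvPowerSeries σ A}
    (h0 : MvPowerSeries.constantCoeff f = 0) {d : σ →₀ ℕ} {c : ℕ} (hdc : d.degree < c) :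
    MvPowerSeries.coeff d (f ^ c) = 0 :=
  MvPowerSeries.coeff_of_lt_order
    (lt_of_lt_of_le (by exact_mod_cast hdc) (MvPowerSeries.le_order_pow_of_constantCoeff_eq_zero c h0))

/-- The coefficient of `u(x) v(y)`. -/
lemma coeff_split (u v : PowerSeries A) (d : Fin 2 →₀ ℕ) :
    MvPowerSeries.coeff d (subst (MvPowerSeries.X (0 : Fin 2)) u *
      subst (MvPowerSeries.X (1 : Fin 2)) v) = coeff (d 0) u * coeff (d 1) v := by
  classical
  rw [MvPowerSeries.coeff_mul, Finset.sum_eq_single (Finsupp.single 0 (d 0), Finsupp.single 1 (d 1))]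
  · simp [coeff_subst_single]
  · intro x hx hne
    simp only [coeff_subst_single]
    split_ifs with h1 h2 <;> try simp
    exfalso
    apply hne
    have hs := Finset.HasAntidiagonal.mem_antidiagonal.1 hx
    have e0 : x.1 0 + x.2 0 = d 0 := by rw [← Finsupp.add_apply, hs]
    have e1 : x.1 1 + x.2 1 = d 1 := by rw [← Finsupp.add_apply, hs]
    have z1 : x.1 1 = 0 := by rw [h1]; simp
    have z2 : x.2 0 = 0 := by rw [h2]; simp
    ext i <;> fin_cases i <;> simp <;> omega
  · intro h
    exfalso
    apply h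
    rw [Finset.HasAntidiagonal.mem_antidiagonal]
    ext i
    fin_cases i <;> simp

lemma coeff_add_pow_eq_zero {K : Type*} [CommRing K] {d : Fin 2 →₀ ℕ} {b : ℕ} (h : d.degree ≠ b) :
    MvPowerSeries.coeff d
      ((MvPowerSeries.X 0 + MvPowerSeries.X 1 : MvPowerSeries (Fin 2) K) ^ b) = 0 := by
  have hP : ((MvPolynomial.X 0 + MvPolynomial.X 1 : MvPolynomial (Fin 2) K) ^ b).IsHomogeneous b := by
    simpa using ((MvPolynomial.isHomogeneous_X K 0).add (MvPolynomial.isHomogeneous_X K 1)).pow b
  rw [← hP.coeff_eq_zero h, ← MvPolynomial.coeff_coe]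
  simp

variable {K : Type*} [CommRing K] (r : A →+* K)

/-- A homomorphism which is the identity up to `N` in low degree does not change the coefficients
of mixed monomials of degree a power of `p`, as long as the laws reduce to the additive one there. -/
theorem hom_coeff_step (p : ℕ) [Fact p.Prime] [CharP K p] {N : Ideal A}
    (hann : ∀ a ∈ N, ∀ b, r b = 0 → a * b = 0) (F₁ F₂ : FormalGroup A) {h : PowerSeries A}
    (h0 : constantCoeff h = 0)
    (heq : subst F₁.toPowerSeries h = MvPowerSeries.subst ![subst (MvPowerSeries.X (0 : Fin 2)) h,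
      subst (MvPowerSeries.X (1 : Fin 2)) h] F₂.toPowerSeries)
    {D : ℕ} (hh : h - X ∈ low1 N D) {d : Fin 2 →₀ ℕ} {i : ℕ} (hd : d.degree = p ^ i)
    (hdD : p ^ i < D) (hd0 : d 0 ≠ 0) (hd1 : d 1 ≠ 0)
    (hlow₁ : ∀ e : Fin 2 →₀ ℕ, e.degree ≤ p ^ i → r (MvPowerSeries.coeff e F₁.toPowerSeries) =
      MvPowerSeries.coeff e (MvPowerSeries.X 0 + MvPowerSeries.X 1 : MvPowerSeries (Fin 2) K))
    (hlow₂ : ∀ e : Fin 2 →₀ ℕ, e.degree ≤ p ^ i → r (MvPowerSeries.coeff e F₂.toPowerSeries) =
      MvPowerSeries.coeff e (MvPowerSeries.X 0 + MvPowerSeries.X 1 : MvPowerSeries (Fin 2) K)) :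
    MvPowerSeries.coeff d F₁.toPowerSeries = MvPowerSeries.coeff d F₂.toPowerSeries := by
  classical
  have hdeg : d.degree = d 0 + d 1 := by rw [Finsupp.degree_eq_sum, Fin.sum_univ_two]
  have hc := congrArg (MvPowerSeries.coeff d) heq
  have hH : MvPowerSeries.HasSubst ![subst (MvPowerSeries.X (0 : Fin 2)) h,
      subst (MvPowerSeries.X (1 : Fin 2)) h] :=
    MvPowerSeries.hasSubst_of_constantCoeff_zero fun s => by
      fin_cases s <;> simpa using constantCoeff_subst_eq_zero (MvPowerSeries.constantCoeff_X (R := A) _) h h0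
  have hne : ∀ s : Fin 2, d ≠ Finsupp.single s 1 := by
    intro s hs
    fin_cases s <;> simp [hs] at hd0 hd1
  have hadd : ∀ b, MvPowerSeries.coeff d
      ((MvPowerSeries.X 0 + MvPowerSeries.X 1 : MvPowerSeries (Fin 2) K) ^ b) = 0 := by
    intro b
    by_cases hb : d.degree = b
    · have : CharP (MvPowerSeries (Fin 2) K) p :=
        charP_of_injective_ringHom MvPowerSeries.C_injective p
      rw [← hb, hd, add_pow_char_pow, map_add, MvPowerSeries.coeff_X_pow, MvPowerSeries.coeff_X_pow,
        if_neg, if_neg, add_zero]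
      · intro hs; exact hd0 (by simp [hs])
      · intro hs; exact hd1 (by simp [hs])
    · exact coeff_add_pow_eq_zero hb
  have hr1 : r (MvPowerSeries.coeff d F₁.toPowerSeries) = 0 := by
    rw [hlow₁ d hd.le]
    simpa using hadd 1
  have hh1 : coeff 1 h - 1 ∈ N := by simpa using hh 1 (by omega)
  rw [coeff_subst (HasSubst.of_constantCoeff_zero F₁.zero_constantCoeff),
    finsum_eq_single _ 1, pow_one, smul_eq_mul,
    MvPowerSeries.coeff_subst hH, finsum_eq_single _ d] at hc
  · rw [Finsupp.prod_fintype _ _ (by simp), Fin.prod_univ_two] at hc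
    simp only [Matrix.cons_val_zero, Matrix.cons_val_one, smul_eq_mul] at hc
    rw [← subst_pow (HasSubst.X _), ← subst_pow (HasSubst.X _), coeff_split] at hc
    have hr2 : r (MvPowerSeries.coeff d F₂.toPowerSeries) = 0 := by
      rw [hlow₂ d hd.le]
      simpa using hadd 1
    have e0 := coeff_pow_sub_mem hh (show d 0 < D by omega) (d 0)
    have e1 := coeff_pow_sub_mem hh (show d 1 < D by omega) (d 1)
    rw [if_pos rfl] at e0 e1
    have a0 := hann _ hh1 _ hr1
    have a1 := hann _ e0 _ hr2
    have a2 := hann _ e1 _ hr2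
    linear_combination hc - a0 + coeff (d 1) (h ^ d 1) * a1 + a2
  · intro e he
    rw [Finsupp.prod_fintype _ _ (by simp), Fin.prod_univ_two]
    simp only [Matrix.cons_val_zero, Matrix.cons_val_one, smul_eq_mul]
    rw [← subst_pow (HasSubst.X _), ← subst_pow (HasSubst.X _), coeff_split]
    rcases lt_or_ge (d 0) (e 0) with h2 | h2
    · simp [coeff_pow_eq_zero_of_lt h0 h2]
    rcases lt_or_ge (d 1) (e 1) with h3 | h3
    · simp [coeff_pow_eq_zero_of_lt h0 h3]
    rcases Nat.eq_zero_or_pos (e 0) with h4 | h4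
    · simp [h4, hd0]
    rcases Nat.eq_zero_or_pos (e 1) with h5 | h5
    · simp [h5, hd1]
    have hee : e.degree ≤ p ^ i := by
      rw [Finsupp.degree_eq_sum, Fin.sum_univ_two]; omega
    have hre : r (MvPowerSeries.coeff e F₂.toPowerSeries) = 0 := by
      rw [hlow₂ e hee, map_add, MvPowerSeries.coeff_X, MvPowerSeries.coeff_X, if_neg, if_neg, add_zero]
      · intro hs; simp [hs] at h4
      · intro hs; simp [hs] at h5
    by_cases h6 : d 0 = e 0
    · have h7 : d 1 ≠ e 1 := by
        intro h7
        apply he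
        ext s
        fin_cases s <;> simp [h6, h7]
      have := coeff_pow_sub_mem hh (show d 1 < D by omega) (e 1)
      rw [if_neg h7, sub_zero] at this
      linear_combination coeff (d 0) (h ^ e 0) * hann _ this _ hre
    · have := coeff_pow_sub_mem hh (show d 0 < D by omega) (e 0)
      rw [if_neg h6, sub_zero] at this
      linear_combination coeff (d 1) (h ^ e 1) * hann _ this _ hre
  · intro b hb
    rcases Nat.eq_zero_or_pos b with rfl | hb0
    · simp [h0]
    rcases lt_or_ge d.degree b with h2 | h2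
    · simp [mv_coeff_pow_eq_zero_of_lt F₁.zero_constantCoeff h2]
    have hb' : coeff b h ∈ N := by
      have := hh b (by omega)
      rwa [map_sub, coeff_X, if_neg hb, sub_zero] at this
    have hlowF : MvPowerSeries.map r F₁.toPowerSeries - (MvPowerSeries.X 0 + MvPowerSeries.X 1) ∈
        low (⊥ : Ideal K) (p ^ i + 1) := by
      intro e he
      rw [map_sub, MvPowerSeries.coeff_map, hlow₁ e (by omega), sub_self]
      exact zero_mem _
    have := pow_sub_pow_mem _ hlowF b d (by omega)
    rw [map_sub, hadd, sub_zero, ← map_pow, MvPowerSeries.coeff_map] at this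
    simpa using hann _ hb' _ (by simpa using this)

/-- If `h` commutes with a series `P` reducing to `X^Q` then the low coefficients of `h` are those
of `X`. -/
theorem endo_step {Q : ℕ} (hQ : 1 < Q) (hQr : r (Q : A) = 0) {N : Ideal A} (hN : N ≤ RingHom.ker r)
    (hann : ∀ a ∈ N, ∀ b, r b = 0 → a * b = 0) {P h : PowerSeries A}
    (P0 : constantCoeff P = 0) (h0 : constantCoeff h = 0) (heq : subst P h = subst h P)
    {D : ℕ} (hh : h - X ∈ low1 N D) (hP : PowerSeries.map r P - X ^ Q ∈ low1 (⊥ : Ideal K) D)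
    {b : ℕ} (hb : Q * b < D) : coeff b h = coeff b (X : PowerSeries A) := by
  classical
  rcases Nat.eq_zero_or_pos b with rfl | hb0
  · simp [h0]
  have hbD : b ≤ Q * b := Nat.le_mul_of_pos_left b (by omega)
  have hPr : ∀ c < D, r (coeff c P) = if c = Q then 1 else 0 := by
    intro c hc
    have := hP c hc
    rw [map_sub, coeff_map, coeff_X_pow, Ideal.mem_bot, sub_eq_zero] at this
    exact this
  have hsP : HasSubst P := HasSubst.of_constantCoeff_zero' P0
  have hsh : HasSubst h := HasSubst.of_constantCoeff_zero' h0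
  -- the exact `Q`-th power
  have hpowQ : ∀ m < D, coeff m (h ^ Q) = if m = Q then 1 else 0 := by
    intro m hm
    have e : h ^ Q - X ^ Q = (h - X) * ∑ j ∈ Finset.range Q, h ^ j * X ^ (Q - 1 - j) := by
      rw [mul_comm, geom_sum₂_mul]
    have hS : ∑ j ∈ Finset.range Q, h ^ j * X ^ (Q - 1 - j) ∈ low1 (RingHom.ker r) D := by
      have hle : low1 N D ≤ low1 (RingHom.ker r) D := fun f hf c hc => hN (hf c hc)
      have h1 : ∑ j ∈ Finset.range Q, h ^ j * X ^ (Q - 1 - j) - (Q : PowerSeries A) * X ^ (Q - 1)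
          ∈ low1 (RingHom.ker r) D := by
        have : ((Q : PowerSeries A) * X ^ (Q - 1)) =
            ∑ j ∈ Finset.range Q, X ^ j * X ^ (Q - 1 - j) := by
          rw [Finset.sum_congr rfl (g := fun _ => (X : PowerSeries A) ^ (Q - 1))]
          · simp
          · intro j hj
            have := Finset.mem_range.1 hj
            rw [← pow_add]; congr 1; omega
        rw [this, ← Finset.sum_sub_distrib]
        refine Ideal.sum_mem _ fun j _ => ?_
        rw [← sub_mul]
        exact hle (Ideal.mul_mem_right _ _ (pow_sub_pow_mem _ hh j))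
      have h2 : (Q : PowerSeries A) * X ^ (Q - 1) ∈ low1 (RingHom.ker r) D := by
        refine Ideal.mul_mem_right _ _ fun c _ => ?_
        rw [← map_natCast (C (R := A)), coeff_C, RingHom.mem_ker]
        split_ifs
        · exact hQr
        · simp
      simpa using add_mem h1 h2
    have := congrArg (coeff m) e
    rw [map_sub, coeff_X_pow, coeff_mul, Finset.sum_eq_zero, sub_eq_zero] at this
    · exact this
    · intro x hx
      have := Finset.HasAntidiagonal.mem_antidiagonal.1 hx
      exact hann _ (hh x.1 (by omega)) _ (RingHom.mem_ker.1 (hS x.2 (by omega)))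
  have hc := congrArg (coeff (Q * b)) heq
  have hR : coeff (Q * b) (subst h P) = coeff (Q * b) P := by
    rw [coeff_subst' hsh, finsum_eq_single _ (Q * b), smul_eq_mul]
    · by_cases hbQ : Q * b = Q
      · rw [hbQ, hpowQ Q (by omega), if_pos rfl, mul_one]
      · have e1 := coeff_pow_sub_mem hh hb (Q * b)
        rw [if_pos rfl] at e1
        have := hann _ e1 (coeff (Q * b) P) (by rw [hPr _ hb, if_neg hbQ])
        linear_combination this
    · intro c hcne
      rw [smul_eq_mul]
      rcases lt_or_ge (Q * b) c with h2 | h2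
      · rw [coeff_pow_eq_zero_of_lt h0 h2, mul_zero]
      by_cases hcQ : c = Q
      · subst hcQ
        rw [hpowQ _ hb, if_neg hcne.symm, mul_zero]
      · have e1 := coeff_pow_sub_mem hh hb c
        rw [if_neg hcne.symm, sub_zero] at e1
        rw [mul_comm]
        exact hann _ e1 _ (by rw [hPr _ (by omega), if_neg hcQ])
  have hL : coeff (Q * b) (subst P h) = coeff (Q * b) P + coeff b (h - X) := by
    have : subst P h = P + subst P (h - X) := by
      rw [subst_sub hsP, subst_X hsP, add_sub_cancel]
    rw [this, map_add, coeff_subst' hsP, finsum_eq_single _ b, smul_eq_mul]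
    · have hpb := pow_sub_pow_mem _ hP b (Q * b) hb
      rw [map_sub, ← pow_mul, coeff_X_pow, if_pos rfl, ← map_pow, coeff_map,
        Ideal.mem_bot] at hpb
      have := hann _ (hh b (by omega)) (coeff (Q * b) (P ^ b) - 1) (by rwa [map_sub, map_one])
      linear_combination this
    · intro c hcne
      rw [smul_eq_mul]
      rcases lt_or_ge (Q * b) c with h2 | h2
      · rw [coeff_pow_eq_zero_of_lt P0 h2, mul_zero]
      refine hann _ (hh c (by omega)) _ ?_
      have hpb := pow_sub_pow_mem _ hP c (Q * b) hb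
      rw [map_sub, ← pow_mul, coeff_X_pow, if_neg, sub_zero, ← map_pow, coeff_map,
        Ideal.mem_bot] at hpb
      · exact hpb
      · exact fun he => hcne (Nat.eq_of_mul_eq_mul_left (by omega) he).symm
  rw [hR, hL, add_eq_left, map_sub, sub_eq_zero] at hc
  exact hc

end Vale.Agent.P217.Cont
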