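/-
P217, uniqueness of the action: a homomorphism between two conjugates of the universal law which
reduces to the identity is the identity, and the two conjugations agree.
-/
import Vale.Agent.P217.Action.Endo
import Vale.Agent.P217.Cont.Low

namespace Vale.Agent.P217.Cont

open IsLocalRing

variable {p n : ℕ} [Fact p.Prime]

/-- The facts about a law used by the uniqueness argument. -/
structure UniqFacts (F : FormalGroup (LT p n)) : Prop where
  low : ∀ d : Fin 2 →₀ ℕ, d.degree < p ^ n → red p n (MvPowerSeries.coeff d F.toPowerSeries) =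
    MvPowerSeries.coeff d (MvPowerSeries.X 0 + MvPowerSeries.X 1 : MvPowerSeries (Fin 2) (Res p n))
  lead : ∀ j : Fin (n - 1), ∃ d : Fin 2 →₀ ℕ, d.degree = p ^ (j.val + 1) ∧ d 0 ≠ 0 ∧ d 1 ≠ 0 ∧
    ∃ c : LT p n, IsUnit c ∧
      MvPowerSeries.coeff d F.toPowerSeries - c * MvPowerSeries.X j ∈
        Ideal.span (MvPowerSeries.X '' {i : Fin (n - 1) | i < j})

lemma isHom_map {R S : Type} [CommRing R] [CommRing S] (π : R →+* S) {A B : FormalGroup R}
    {h : PowerSeries R} (hh : IsHom A B h) : IsHom (A.map π) (B.map π) (h.map π) := by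
  obtain ⟨h0, he⟩ := hh
  refine ⟨?_, ?_⟩
  · rw [← PowerSeries.coeff_zero_eq_constantCoeff_apply, PowerSeries.coeff_map,
      PowerSeries.coeff_zero_eq_constantCoeff_apply, h0, map_zero]
  have hc : ∀ s : Fin 2, MvPowerSeries.constantCoeff
      (PowerSeries.subst (MvPowerSeries.X s : MvPowerSeries (Fin 2) R) h) = 0 := fun s =>
    PowerSeries.constantCoeff_subst_eq_zero (MvPowerSeries.constantCoeff_X (R := R) s) h h0
  have hH : MvPowerSeries.HasSubst
      ![PowerSeries.subst (MvPowerSeries.X (0 : Fin 2)) h,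
        PowerSeries.subst (MvPowerSeries.X (1 : Fin 2)) h] :=
    MvPowerSeries.hasSubst_of_constantCoeff_zero fun s => by
      fin_cases s <;> simpa using hc _
  have e := congrArg (MvPowerSeries.map π) he
  rw [PowerSeries.map_subst (PowerSeries.HasSubst.of_constantCoeff_zero A.zero_constantCoeff),
    MvPowerSeries.map_subst hH] at e
  refine e.trans ?_
  congr 1
  funext s
  fin_cases s <;> simp [PowerSeries.map_subst (PowerSeries.HasSubst.X _), MvPowerSeries.map_X]

/-- Reduction on the quotient by a power of the maximal ideal. -/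
noncomputable def redQuot (p n : ℕ) [Fact p.Prime] (k : ℕ) :
    LT p n ⧸ maximalIdeal (LT p n) ^ (k + 1) →+* Res p n :=
  Ideal.Quotient.lift _ (red p n) fun a ha =>
    (red_eq_zero_iff p n a).2 (Ideal.pow_le_self (Nat.succ_ne_zero k) ha)

lemma redQuot_mk (k : ℕ) (a : LT p n) : redQuot p n k (Ideal.Quotient.mk _ a) = red p n a := rfl

lemma ann_quot {k : ℕ} {a : LT p n ⧸ maximalIdeal (LT p n) ^ (k + 1)}
    (ha : a ∈ (maximalIdeal (LT p n) ^ k).map (Ideal.Quotient.mk _))
    {b : LT p n ⧸ maximalIdeal (LT p n) ^ (k + 1)} (hb : redQuot p n k b = 0) : a * b = 0 := by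
  obtain ⟨x, hx, rfl⟩ :=
    (Ideal.mem_map_iff_of_surjective _ Ideal.Quotient.mk_surjective).1 ha
  obtain ⟨y, rfl⟩ := Ideal.Quotient.mk_surjective b
  rw [← map_mul, Ideal.Quotient.eq_zero_iff_mem, pow_succ]
  exact Ideal.mul_mem_mul hx ((red_eq_zero_iff p n y).1 hb)

lemma sub_mul_mem {k : ℕ} (φ ψ : LT p n →ₐ[WittVector p (Res p n)] LT p n)
    (hφψ : ∀ a, φ a - ψ a ∈ maximalIdeal (LT p n) ^ k) (y z : LT p n)
    (hzm : z ∈ maximalIdeal (LT p n)) :
    φ (y * z) - ψ (y * z) - φ y * (φ z - ψ z) ∈ maximalIdeal (LT p n) ^ (k + 1) := by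
  rw [map_mul, map_mul, show φ y * φ z - ψ y * ψ z - φ y * (φ z - ψ z) = (φ y - ψ y) * ψ z by ring,
    pow_succ]
  exact Ideal.mul_mem_mul (hφψ y) (endo_mem_maximalIdeal ψ hzm)

/-- The coefficient of degree `p^i` agrees modulo `m^(k+1)`. -/
lemma coeff_law_mod {F : FormalGroup (LT p n)} (hF : UniqFacts F)
    (φ ψ : LT p n →ₐ[WittVector p (Res p n)] LT p n) {h : PowerSeries (LT p n)}
    (hh : IsHom (F.map ψ.toRingHom) (F.map φ.toRingHom) h) {k : ℕ}
    (hcoef : ∀ b, PowerSeries.coeff b h - PowerSeries.coeff b (PowerSeries.X : PowerSeries (LT p n))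
      ∈ maximalIdeal (LT p n) ^ k)
    {d : Fin 2 →₀ ℕ} {i : ℕ} (hi : i < n) (hd : d.degree = p ^ i) (hd0 : d 0 ≠ 0) (hd1 : d 1 ≠ 0) :
    φ (MvPowerSeries.coeff d F.toPowerSeries) - ψ (MvPowerSeries.coeff d F.toPowerSeries) ∈
      maximalIdeal (LT p n) ^ (k + 1) := by
  have hlt : p ^ i < p ^ n := Nat.pow_lt_pow_right (Fact.out : p.Prime).one_lt hi
  set π := Ideal.Quotient.mk (maximalIdeal (LT p n) ^ (k + 1))
  have hM := isHom_map π hh
  have hcoe : ∀ (θ : LT p n →ₐ[WittVector p (Res p n)] LT p n) (e : Fin 2 →₀ ℕ),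
      MvPowerSeries.coeff e ((F.map θ.toRingHom).map π).toPowerSeries =
        π (θ (MvPowerSeries.coeff e F.toPowerSeries)) := fun θ e => by
    simp [FormalGroup.map_toPowerSeries, MvPowerSeries.coeff_map]
  have hlow : ∀ (θ : LT p n →ₐ[WittVector p (Res p n)] LT p n) (e : Fin 2 →₀ ℕ),
      e.degree ≤ p ^ i →
      redQuot p n k (MvPowerSeries.coeff e ((F.map θ.toRingHom).map π).toPowerSeries) =
      MvPowerSeries.coeff e
        (MvPowerSeries.X 0 + MvPowerSeries.X 1 : MvPowerSeries (Fin 2) (Res p n)) := by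
    intro θ e he
    rw [hcoe θ e, redQuot_mk, red_endo]
    exact hF.low e (lt_of_le_of_lt he hlt)
  have hh' : h.map π - PowerSeries.X ∈
      low1 ((maximalIdeal (LT p n) ^ k).map π) (p ^ n) := by
    intro b _
    rw [map_sub, PowerSeries.coeff_map, ← PowerSeries.map_X π, PowerSeries.coeff_map, ← map_sub]
    exact Ideal.mem_map_of_mem π (hcoef b)
  have key := hom_coeff_step (redQuot p n k) p (fun a ha b hb => ann_quot ha hb)
    ((F.map ψ.toRingHom).map π) ((F.map φ.toRingHom).map π) hM.1 hM.2 hh' hd hlt hd0 hd1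
    (hlow ψ) (hlow φ)
  rw [hcoe, hcoe] at key
  have := neg_mem (Ideal.Quotient.eq.1 key)
  rwa [neg_sub] at this

/-- One step: agreement modulo `m^k` gives agreement of the endomorphisms modulo `m^(k+1)`. -/
theorem endo_step_LT {F : FormalGroup (LT p n)} (hF : UniqFacts F)
    (φ ψ : LT p n →ₐ[WittVector p (Res p n)] LT p n) {h : PowerSeries (LT p n)}
    (hh : IsHom (F.map ψ.toRingHom) (F.map φ.toRingHom) h) {k : ℕ}
    (hφψ : ∀ a, φ a - ψ a ∈ maximalIdeal (LT p n) ^ k)
    (hcoef : ∀ b, PowerSeries.coeff b h - PowerSeries.coeff b (PowerSeries.X : PowerSeries (LT p n))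
      ∈ maximalIdeal (LT p n) ^ k) :
    ∀ a, φ a - ψ a ∈ maximalIdeal (LT p n) ^ (k + 1) := by
  have hX : ∀ j : Fin (n - 1),
      φ (MvPowerSeries.X j) - ψ (MvPowerSeries.X j) ∈ maximalIdeal (LT p n) ^ (k + 1) := by
    intro j
    induction j using WellFoundedLT.induction with
    | ind j ih =>
      obtain ⟨d, hd, hd0, hd1, c, hc, hlead⟩ := hF.lead j
      have key := coeff_law_mod hF φ ψ hh hcoef (by omega) hd hd0 hd1
      have hspan : ∀ a ∈ Ideal.span (MvPowerSeries.X '' {i : Fin (n - 1) | i < j} : Set (LT p n)),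
          φ a - ψ a ∈ maximalIdeal (LT p n) ^ (k + 1) ∧ a ∈ maximalIdeal (LT p n) := by
        intro a ha
        induction ha using Submodule.span_induction with
        | mem x hx =>
          obtain ⟨i, hi, rfl⟩ := hx
          exact ⟨ih i hi, X_mem_maximalIdeal i⟩
        | zero => simp
        | add x y _ _ hx hy =>
          rw [map_add, map_add, add_sub_add_comm]
          exact ⟨add_mem hx.1 hy.1, add_mem hx.2 hy.2⟩
        | smul y z _ hz =>
          rw [smul_eq_mul]
          refine ⟨?_, Ideal.mul_mem_left _ _ hz.2⟩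
          have := add_mem (sub_mul_mem φ ψ hφψ y z hz.2) (Ideal.mul_mem_left _ (φ y) hz.1)
          rwa [sub_add_cancel] at this
      have h1 := sub_mem key (hspan _ hlead).1
      rw [← sub_sub_sub_comm, ← map_sub, ← map_sub, sub_sub_cancel] at h1
      have h2 := sub_mem h1 (sub_mul_mem φ ψ hφψ c _ (X_mem_maximalIdeal j))
      rw [sub_sub_cancel] at h2
      exact (Ideal.unit_mul_mem_iff_mem _ (hc.map φ)).1 h2
  exact fun a => endo_congr φ ψ hX a

/-- A homomorphism reducing to the identity is the identity and the endomorphisms agree. -/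
theorem endo_eq_of_hom {F : FormalGroup (LT p n)} (hF : UniqFacts F)
    (φ ψ : LT p n →ₐ[WittVector p (Res p n)] LT p n) {h : PowerSeries (LT p n)}
    (hh : IsHom (F.map ψ.toRingHom) (F.map φ.toRingHom) h) (hred : h.map (red p n) = PowerSeries.X)
    (hn : 1 ≤ n) {P : PowerSeries (LT p n)} (P0 : PowerSeries.constantCoeff P = 0)
    (hP : P.map (red p n) = PowerSeries.X ^ p ^ n)
    (hcomm : PowerSeries.subst (P.map ψ.toRingHom) h = PowerSeries.subst h (P.map φ.toRingHom)) :
    φ = ψ ∧ h = PowerSeries.X := by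
  classical
  set m := maximalIdeal (LT p n) with hm
  have main : ∀ k, 1 ≤ k → (∀ a, φ a - ψ a ∈ m ^ k) ∧
      ∀ b, PowerSeries.coeff b h - PowerSeries.coeff b (PowerSeries.X : PowerSeries (LT p n))
        ∈ m ^ k := by
    intro k hk
    induction k, hk using Nat.le_induction with
    | base =>
      refine ⟨fun a => ?_, fun b => ?_⟩
      · rw [pow_one, hm, ← red_eq_zero_iff, map_sub, red_endo, red_endo, sub_self]
      · rw [pow_one, hm, ← red_eq_zero_iff, map_sub, ← PowerSeries.coeff_map,
          ← PowerSeries.coeff_map, hred, PowerSeries.map_X, sub_self]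
    | succ k hk ih =>
      have h1 := endo_step_LT hF φ ψ hh ih.1 ih.2
      refine ⟨h1, fun b => ?_⟩
      set π := Ideal.Quotient.mk (m ^ (k + 1)) with hπ
      have hle : m ^ (k + 1) ≤ RingHom.ker (red p n) := fun a ha =>
        (red_eq_zero_iff p n a).2 (Ideal.pow_le_self (by omega) ha)
      set r : LT p n ⧸ m ^ (k + 1) →+* Res p n :=
        Ideal.Quotient.lift _ (red p n) fun a ha => hle ha
      have hr : ∀ a, r (π a) = red p n a := fun a => rfl
      set N := (m ^ k).map π with hN
      have hann : ∀ a ∈ N, ∀ b, r b = 0 → a * b = 0 := by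
        intro a ha b hb
        obtain ⟨x, hx, rfl⟩ := (Ideal.mem_map_iff_of_surjective π Ideal.Quotient.mk_surjective).1 ha
        obtain ⟨y, rfl⟩ := Ideal.Quotient.mk_surjective b
        rw [← map_mul, Ideal.Quotient.eq_zero_iff_mem, pow_succ]
        exact Ideal.mul_mem_mul hx ((red_eq_zero_iff p n y).1 hb)
      have hPeq : (P.map φ.toRingHom).map π = (P.map ψ.toRingHom).map π := by
        ext c
        simp only [PowerSeries.coeff_map]
        exact Ideal.Quotient.eq.2 (h1 _)
      have h0 : PowerSeries.HasSubst h := PowerSeries.HasSubst.of_constantCoeff_zero' hh.1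
      have Pψ0 : PowerSeries.constantCoeff (P.map ψ.toRingHom) = 0 := by
        rw [← PowerSeries.coeff_zero_eq_constantCoeff_apply, PowerSeries.coeff_map,
          PowerSeries.coeff_zero_eq_constantCoeff_apply, P0, map_zero]
      have e := congrArg (PowerSeries.map π) hcomm
      have e1 : (PowerSeries.subst (P.map ψ.toRingHom) h).map π =
          PowerSeries.subst ((P.map ψ.toRingHom).map π) (h.map π) :=
        PowerSeries.map_subst (PowerSeries.HasSubst.of_constantCoeff_zero' Pψ0) _
      have e2 : (PowerSeries.subst h (P.map φ.toRingHom)).map π =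
          PowerSeries.subst (h.map π) ((P.map φ.toRingHom).map π) :=
        PowerSeries.map_subst h0 _
      have e' := (e1.symm.trans e).trans e2
      rw [hPeq] at e'
      have hQ : 1 < p ^ n := Nat.one_lt_pow (by omega) (Fact.out : p.Prime).one_lt
      have := endo_step r hQ (N := N) (D := p ^ n * b + 1) (b := b)
        (by rw [map_natCast, Nat.cast_pow, CharP.cast_eq_zero, zero_pow (by omega)])
        (fun a ha => by
          obtain ⟨x, hx, rfl⟩ :=
            (Ideal.mem_map_iff_of_surjective π Ideal.Quotient.mk_surjective).1 ha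
          exact (red_eq_zero_iff p n x).2 (Ideal.pow_le_self (by omega) hx))
        hann (P := (P.map ψ.toRingHom).map π) (h := h.map π)
        (by rw [← PowerSeries.coeff_zero_eq_constantCoeff_apply, PowerSeries.coeff_map,
          PowerSeries.coeff_zero_eq_constantCoeff_apply, Pψ0, map_zero])
        (by rw [← PowerSeries.coeff_zero_eq_constantCoeff_apply, PowerSeries.coeff_map,
          PowerSeries.coeff_zero_eq_constantCoeff_apply, hh.1, map_zero])
        e'
        (by
          intro c _
          rw [map_sub, PowerSeries.coeff_map, ← PowerSeries.map_X π, PowerSeries.coeff_map,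
            ← map_sub]
          exact Ideal.mem_map_of_mem π (ih.2 c))
        (by
          intro c _
          rw [map_sub, PowerSeries.coeff_map, PowerSeries.coeff_map, PowerSeries.coeff_map, hr]
          show red p n (ψ (PowerSeries.coeff c P)) - _ ∈ _
          rw [red_endo, ← PowerSeries.coeff_map, hP, sub_self]
          exact zero_mem _)
        (Nat.lt_succ_self _)
      rw [PowerSeries.coeff_map, ← PowerSeries.map_X π, PowerSeries.coeff_map] at this
      exact Ideal.Quotient.eq.1 this
  have hsep : ∀ a : LT p n, (∀ k, 1 ≤ k → a ∈ m ^ k) → a = 0 := by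
    intro a ha
    have hb := Ideal.iInf_pow_eq_bot_of_isLocalRing m
      (maximalIdeal.isMaximal (LT p n)).ne_top
    have : a ∈ ⨅ k : ℕ, m ^ k := (Submodule.mem_iInf _).2 fun k => by
      rcases Nat.eq_zero_or_pos k with rfl | hk
      · simp
      · exact ha k hk
    rw [hb] at this
    simpa using this
  refine ⟨AlgHom.ext fun a => sub_eq_zero.1 (hsep _ fun k hk => (main k hk).1 a), ?_⟩
  ext b : 1
  exact sub_eq_zero.1 (hsep _ fun k hk => (main k hk).2 b)

end Vale.Agent.P217.Cont
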